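import Vale.Agent.P089G.DefsA

/-! Working forms of the definitions: push forward, `C*_r(G)`, `K_0^G(X)` and the assembly map. -/

namespace Vale.Agent.P089G

open Vale.Agent.P089Z Vale.Agent.P089.BC Matrix Topology TopologicalSpace ContinuousLinearMap
open scoped ZeroAtInfty

universe u

/-! ### The algebras `C*_r(G)` and `C*_r(G) ⊗ 𝒦` -/

section

variable {G K E : Type} [Group G] [NormedAddCommGroup K] [InnerProductSpace ℂ K]
  [NormedAddCommGroup E] [InnerProductSpace ℂ E]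

/-- The reduced group C*-algebra `C*_r(G)`: the norm closure in `B(ℓ²(G))` of the algebra `ℂ[G]`
spanned by the left translations `λ_g`. Here `ℓ²(G)` is a Hilbert space `K` with orthonormal
basis `b x`, `x ∈ G`. -/
noncomputable def cstar (b : HilbertBasis G ℂ K) : Subalgebra ℂ (K →L[ℂ] K) :=
  (Algebra.adjoin ℂ {T | ∃ g, ∀ x, T (b x) = b (g * x)}).topologicalClosure

/-- The unitization of `C*_r(G) ⊗ 𝒦`: the norm closure in `B(ℓ²(G) ⊗ ℓ²(ℕ))` of the unital
algebra generated by the operators `λ_g ⊗ e_ij`. -/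
noncomputable def stab (c : HilbertBasis (G × ℕ) ℂ E) : Subalgebra ℂ (E →L[ℂ] E) :=
  (Algebra.adjoin ℂ {T | ∃ g i j, (∀ x, T (c (x, j)) = c (g * x, i)) ∧
    ∀ x n, n ≠ j → T (c (x, n)) = 0}).topologicalClosure

/-- `κ` is the stabilisation map, induced by `T ↦ T ⊗ e₀₀`. -/
def IsStab (b : HilbertBasis G ℂ K) (c : HilbertBasis (G × ℕ) ℂ E)
    (κ : KZero (cstar b) →+ KZero (stab c)) : Prop :=
  ∀ q : Idem (cstar b), ∃ (e : Matrix (Fin q.n) (Fin q.n) (stab c)) (h : e * e = e),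
    (∀ j k, IsCorner b c (q.e j k) (e j k)) ∧ κ q.cls = Idem.cls ⟨q.n, e, h⟩

end

theorem c0_star {Y Y' : Type} [TopologicalSpace Y] [TopologicalSpace Y'] (f : CocompactMap Y Y')
    (a : C₀(Y', ℂ)) : (star a).comp f = star (a.comp f) := rfl

/-- The pull back of functions along a proper map. -/
noncomputable def c0Comap {Y Y' : Type} [TopologicalSpace Y] [TopologicalSpace Y']
    (f : CocompactMap Y Y') : C₀(Y', ℂ) →⋆ₙₐ[ℂ] C₀(Y, ℂ) :=
  ⟨ZeroAtInftyContinuousMap.compNonUnitalAlgHom f, c0_star f⟩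

section

variable {G Y Y' : Type} [Group G] [TopologicalSpace Y] [MulAction G Y] [ContinuousConstSMul G Y]
  [TopologicalSpace Y'] [MulAction G Y'] [ContinuousConstSMul G Y']

section

variable {H K L : Type} [NormedAddCommGroup H] [InnerProductSpace ℂ H] [CompleteSpace H]
  [NormedAddCommGroup K] [InnerProductSpace ℂ K] [CompleteSpace K]
  [NormedAddCommGroup L] [InnerProductSpace ℂ L] [CompleteSpace L]

/-- The representation of `C₀(Y')` given by a representation of `C₀(Y)` and a proper map. -/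
noncomputable def pushRep (f : CocompactMap Y Y') (Z : Cycle G Y H) :
    C₀(Y', ℂ) →⋆ₙₐ[ℂ] (H →L[ℂ] H) :=
  Z.ρ.comp (c0Comap f)

theorem push_even (f : CocompactMap Y Y') (Z : Cycle G Y H) (a : C₀(Y', ℂ)) :
    Z.γ * pushRep f Z a = pushRep f Z a * Z.γ := Z.ρ_even _

theorem push_cov (f : CocompactMap Y Y') (hf : ∀ (g : G) y, f (g • y) = g • f y)
    (Z : Cycle G Y H) (g : G) (a : C₀(Y', ℂ)) :
    (Z.U g).1 * pushRep f Z a * (Z.U g⁻¹).1 = pushRep f Z (shift g a) :=
  (Z.covariant g (c0Comap f a)).trans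
    (congrArg Z.ρ (ZeroAtInftyContinuousMap.ext fun y => congrArg a (hf g⁻¹ y)))

theorem push_sq (f : CocompactMap Y Y') (Z : Cycle G Y H) (a : C₀(Y', ℂ)) :
    IsCompactOperator (pushRep f Z a * (Z.F * Z.F - 1) : H →L[ℂ] H) := Z.compact_sq _

theorem push_star (f : CocompactMap Y Y') (Z : Cycle G Y H) (a : C₀(Y', ℂ)) :
    IsCompactOperator (pushRep f Z a * (Z.F - star Z.F) : H →L[ℂ] H) := Z.compact_star _

theorem push_comm (f : CocompactMap Y Y') (Z : Cycle G Y H) (a : C₀(Y', ℂ)) :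
    IsCompactOperator (pushRep f Z a * Z.F - Z.F * pushRep f Z a : H →L[ℂ] H) := Z.compact_comm _

theorem push_inv (f : CocompactMap Y Y') (Z : Cycle G Y H) (g : G) (a : C₀(Y', ℂ)) :
    IsCompactOperator (pushRep f Z a * ((Z.U g).1 * Z.F * (Z.U g⁻¹).1 - Z.F) : H →L[ℂ] H) :=
  Z.compact_inv g _

/-- The push forward of a cycle along an equivariant proper map. -/
noncomputable def push (f : CocompactMap Y Y') (hf : ∀ (g : G) y, f (g • y) = g • f y)
    (Z : Cycle G Y H) : Cycle G Y' H :=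
  ⟨Z.γ, pushRep f Z, Z.U, Z.F, Z.γ_star, Z.γ_sq, push_even f Z, Z.U_even, Z.F_odd,
    push_cov f hf Z, push_sq f Z, push_star f Z, push_comm f Z, push_inv f Z⟩

end

/-- The push forward of a cycle. -/
noncomputable def Cyc.push (f : CocompactMap Y Y') (hf : ∀ (g : G) y, f (g • y) = g • f y)
    (c : Cyc G Y) : Cyc G Y' :=
  @Cyc.mk G Y' _ _ _ _ c.H c.nacg c.ips c.cs c.sep
    (@P089G.push G Y Y' _ _ _ _ _ _ _ c.H c.nacg c.ips c.cs f hf c.Z)

theorem Cyc.push_sim (f : CocompactMap Y Y') (hf : ∀ (g : G) y, f (g • y) = g • f y) :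
    ∀ a b : Cyc G Y, a.Sim b → (a.push f hf).Sim (b.push f hf) := by
  rintro _ _ (⟨a, b, u, h1, h2⟩ | ⟨_, _, c, rfl, rfl, h1, h2⟩)
  · exact .unitary (P089G.push f hf a) (P089G.push f hf b)
      ⟨u, ⟨h1.iso, h1.γ, fun a => h1.ρ (c0Comap f a), h1.U, h1.F⟩, h2⟩
  · exact .homotopy _ _ ⟨fun t => P089G.push f hf (c t), rfl, rfl,
      fun t => ⟨(h1 t).1, congrArg (·.comp (c0Comap f)) (h1 t).2.1, (h1 t).2.2⟩, h2⟩

theorem Cyc.push_isSum (f : CocompactMap Y Y') (hf : ∀ (g : G) y, f (g • y) = g • f y) :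
    ∀ a b c : Cyc G Y, a.IsSum b c → (a.push f hf).IsSum (b.push f hf) (c.push f hf) := by
  rintro _ _ _ ⟨a, b, c, v, w, h1, h2, h3⟩
  exact .mk (P089G.push f hf a) (P089G.push f hf b) (P089G.push f hf c)
    ⟨v, w, ⟨h1.iso, h1.γ, fun a => h1.ρ (c0Comap f a), h1.U, h1.F⟩,
      ⟨h2.iso, h2.γ, fun a => h2.ρ (c0Comap f a), h2.U, h2.F⟩, h3⟩

/-- Functoriality of `KK^G_0(C₀(Y), ℂ)` for equivariant proper maps. -/
noncomputable def KK.push (f : CocompactMap Y Y') (hf : ∀ (g : G) y, f (g • y) = g • f y) :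
    KK G Y →+ KK G Y' :=
  Pres.map (Cyc.push f hf) (Cyc.push_sim f hf) (Cyc.push_isSum f hf)

end

section

variable {G X : Type} [Group G] [TopologicalSpace X] [MulAction G X] [ContinuousConstSMul G X]
  [CWComplex (Set.univ : Set X)]

omit [ContinuousConstSMul G X] in
theorem Sub.incl_cont {Y Y' : Sub G X} (h : Y ≤ Y') : Continuous (Sub.inclFun h) :=
  continuous_subtype_val.subtype_mk _

omit [ContinuousConstSMul G X] in
theorem Sub.incl_proper {Y Y' : Sub G X} (h : Y ≤ Y') :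
    Filter.Tendsto (Sub.inclFun h) (Filter.cocompact Y.Y) (Filter.cocompact Y'.Y) := by
  obtain ⟨C, hC⟩ := Y.subcomplex
  have h1 : IsClosed (Y.Y : Set X) := hC ▸ C.closed
  exact (IsClosedEmbedding.inclusion (s := (Y.Y : Set X)) (t := (Y'.Y : Set X)) h
    (h1.preimage continuous_subtype_val)).tendsto_cocompact

/-- The inclusion of a subcomplex as a proper map. -/
def Sub.incl {Y Y' : Sub G X} (h : Y ≤ Y') : CocompactMap Y.Y Y'.Y :=
  ⟨⟨Sub.inclFun h, Sub.incl_cont h⟩, Sub.incl_proper h⟩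

omit [ContinuousConstSMul G X] in
theorem Sub.incl_smul {Y Y' : Sub G X} (h : Y ≤ Y') (g : G) (y : Y.Y) :
    Sub.incl h (g • y) = g • Sub.incl h y := rfl

/-- The map of K-homology groups induced by an inclusion of subcomplexes. -/
noncomputable def Sub.push (Y Y' : Sub G X) (h : Y ≤ Y') : KK G Y.Y →+ KK G Y'.Y :=
  KK.push (Sub.incl h) (Sub.incl_smul h)

variable (G X) in
/-- The equivariant K-homology with `G`-compact supports,
`K_0^G(X) = lim_Y KK^G_0(C₀(Y), ℂ)`. -/
def KG0 : Type 1 := AddCommGroup.DirectLimit (fun Y : Sub G X => KK G Y.Y) Sub.push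

noncomputable instance kg0Group : AddCommGroup (KG0 G X) :=
  AddCommGroup.DirectLimit.addCommGroup _ _

/-- The class in `K_0^G(X)` of a cycle over `Y`. -/
noncomputable def KG0.cls (Y : Sub G X) (c : Cyc G Y.Y) : KG0 G X :=
  AddCommGroup.DirectLimit.of (fun Y : Sub G X => KK G Y.Y) Sub.push Y (Pres.of _ _ c)

end

/-! ### The assembly map -/

section

variable {G Y H E : Type} [Group G] [TopologicalSpace Y] [MulAction G Y]
  [ContinuousConstSMul G Y] [NormedAddCommGroup H] [InnerProductSpace ℂ H] [CompleteSpace H]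
  [NormedAddCommGroup E] [InnerProductSpace ℂ E]

/-- `A` is the index matrix, over `C*_r(G) ⊗ 𝒦`, of the product of the descent of `Z` with the
cutoff projection `p`, for some cutoff function `w` and some embedding of `H` in `ℓ²(ℕ)`. -/
def IsIndexMat (c : HilbertBasis (G × ℕ) ℂ E) (Z : Cycle G Y H)
    (A : Matrix (Fin 2) (Fin 2) (stab c)) : Prop :=
  ∃ (w : C₀(Y, ℂ)) (p : MonoidAlgebra (H →L[ℂ] H) G) (ι : Type) (d : HilbertBasis ι ℂ H)
    (u : ι ↪ ℕ), IsCutoff G Y w ∧ Z.IsProj w p ∧ ∀ j k, IsSum c d u (Z.index p j k) (A j k)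

/-- `x = [A + diag(0, 1)] - [diag(0, 1)]`. -/
def IsDiff {B : Type} [Ring B] (A : Matrix (Fin 2) (Fin 2) B) (x : KZero B) : Prop :=
  ∃ h h', x = Idem.cls ⟨2, addDiag A, h⟩ - Idem.cls ⟨2, diag01 B, h'⟩

/-- `x` is the analytic index of `Z`: index matrices exist, and each of them gives `x`. -/
def IsIndex (c : HilbertBasis (G × ℕ) ℂ E) (Z : Cycle G Y H) (x : KZero (stab c)) : Prop :=
  (∃ A, IsIndexMat c Z A) ∧ ∀ A, IsIndexMat c Z A → IsDiff A x

end

section

variable {G X K : Type} [Group G] [TopologicalSpace X] [MulAction G X] [ContinuousConstSMul G X]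
  [CWComplex (Set.univ : Set X)] [NormedAddCommGroup K] [InnerProductSpace ℂ K]

/-- `μ : K_0^G(X) → K_0(C*_r(G))` is the assembly map: the stabilisation map `κ` is injective,
and `κ (μ [Z])` is the analytic index of `Z`. -/
def IsAssembly (b : HilbertBasis G ℂ K) (μ : KG0 G X →+ KZero (cstar b)) : Prop :=
  ∀ (E : Type) [NormedAddCommGroup E] [InnerProductSpace ℂ E] [CompleteSpace E]
    (c : HilbertBasis (G × ℕ) ℂ E), ∃ κ, IsStab b c κ ∧ Function.Injective κ ∧
    ∀ (Y : Sub G X) (H : Type) [NormedAddCommGroup H] [InnerProductSpace ℂ H] [CompleteSpace H]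
      [SeparableSpace H] (Z : Cycle G Y.Y H), IsIndex c Z (κ (μ (KG0.cls Y ⟨H, Z⟩)))

/-- The assembly map of `X` exists, is unique, and is not surjective; some class has no positive
multiple in the image, and the class of the unit is in the image. -/
def AssemblyFails (X : Type) [TopologicalSpace X] [MulAction G X] [ContinuousConstSMul G X]
    [CWComplex (Set.univ : Set X)] (b : HilbertBasis G ℂ K) : Prop :=
  ∃ μ : KG0 G X →+ KZero (cstar b), IsAssembly b μ ∧ (∀ μ', IsAssembly b μ' → μ' = μ) ∧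
    ¬ Function.Surjective μ ∧ (∃ x, ∀ m : ℕ, 1 ≤ m → m • x ∉ μ.range) ∧
    Idem.cls ⟨1, 1, one_mul 1⟩ ∈ μ.range

end

end Vale.Agent.P089G
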