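import Vale.Agent.P089Z.Defs
import Vale.Agent.P089GM.KDefs
import Mathlib.Algebra.Colimit.Module
import Mathlib.GroupTheory.FreeAbelianGroup
import Mathlib.Topology.CWComplex.Classical.Basic
import Mathlib.Topology.Homotopy.Contractible

/-! The classifying space for proper actions, its equivariant K-homology with `G`-compact
supports, the group `K_0(C*_r(G))` and the assembly map: the definitions used in the statement. -/

namespace Vale.Agent.P089G

open Vale.Agent.P089Z Vale.Agent.P089.BC Matrix Topology TopologicalSpace ContinuousLinearMap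
open scoped ZeroAtInfty

universe u

/-- The class in `K_0(R)` of an idempotent matrix. -/
def Idem.cls {R : Type} [Ring R] (a : Idem R) : KZero R := Pres.of _ _ a

/-! ### Kasparov's group `KK^G_0(C₀(Y), ℂ)` -/

section

variable {G Y : Type} [Group G] [TopologicalSpace Y] [MulAction G Y] [ContinuousConstSMul G Y]

section

variable {H K L : Type} [NormedAddCommGroup H] [InnerProductSpace ℂ H] [CompleteSpace H]
  [NormedAddCommGroup K] [InnerProductSpace ℂ K] [CompleteSpace K]
  [NormedAddCommGroup L] [InnerProductSpace ℂ L] [CompleteSpace L]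

/-- The adjoint operator. -/
noncomputable def adj (v : H →L[ℂ] K) : K →L[ℂ] H := adjoint v

/-- `v` is an isometry which intertwines the gradings, the representations and the
operators. -/
structure Embeds (a : Cycle G Y H) (c : Cycle G Y K) (v : H →L[ℂ] K) : Prop where
  iso : adj v ∘L v = 1
  γ : c.γ ∘L v = v ∘L a.γ
  ρ : ∀ f, c.ρ f ∘L v = v ∘L a.ρ f
  U : ∀ g, (c.U g).1 ∘L v = v ∘L (a.U g).1
  F : c.F ∘L v = v ∘L a.F

/-- Unitary equivalence. -/
structure UnitEq (a : Cycle G Y H) (b : Cycle G Y K) : Prop where
  ex : ∃ u : H →L[ℂ] K, Embeds a b u ∧ u ∘L adj u = 1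

/-- Operator homotopy. -/
structure OpHtpy (a b : Cycle G Y H) : Prop where
  ex : ∃ c : unitInterval → Cycle G Y H, c 0 = a ∧ c 1 = b ∧
    (∀ t, (c t).γ = a.γ ∧ (c t).ρ = a.ρ ∧ (c t).U = a.U) ∧ Continuous fun t => (c t).F

/-- `c` is the orthogonal direct sum of `a` and `b`. -/
structure OrthSum (a : Cycle G Y H) (b : Cycle G Y K) (c : Cycle G Y L) : Prop where
  ex : ∃ (v : H →L[ℂ] L) (w : K →L[ℂ] L), Embeds a c v ∧ Embeds b c w ∧
    v ∘L adj v + w ∘L adj w = 1

end

variable (G Y) in
/-- A separable Hilbert space with a cycle on it. -/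
structure Cyc : Type 1 where
  H : Type
  [nacg : NormedAddCommGroup H]
  [ips : InnerProductSpace ℂ H]
  [cs : CompleteSpace H]
  [sep : SeparableSpace H]
  Z : Cycle G Y H

/-- Unitary equivalence and operator homotopy. -/
inductive Cyc.Sim : Cyc G Y → Cyc G Y → Prop
  | unitary {H K : Type} [NormedAddCommGroup H] [InnerProductSpace ℂ H] [CompleteSpace H]
      [SeparableSpace H] [NormedAddCommGroup K] [InnerProductSpace ℂ K] [CompleteSpace K]
      [SeparableSpace K] (a : Cycle G Y H) (b : Cycle G Y K) :
      UnitEq a b → Cyc.Sim ⟨H, a⟩ ⟨K, b⟩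
  | homotopy {H : Type} [NormedAddCommGroup H] [InnerProductSpace ℂ H] [CompleteSpace H]
      [SeparableSpace H] (a b : Cycle G Y H) : OpHtpy a b → Cyc.Sim ⟨H, a⟩ ⟨H, b⟩

/-- The third cycle is the direct sum of the first two. -/
inductive Cyc.IsSum : Cyc G Y → Cyc G Y → Cyc G Y → Prop
  | mk {H K L : Type} [NormedAddCommGroup H] [InnerProductSpace ℂ H] [CompleteSpace H]
      [SeparableSpace H] [NormedAddCommGroup K] [InnerProductSpace ℂ K] [CompleteSpace K]
      [SeparableSpace K] [NormedAddCommGroup L] [InnerProductSpace ℂ L] [CompleteSpace L]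
      [SeparableSpace L] (a : Cycle G Y H) (b : Cycle G Y K) (c : Cycle G Y L) :
      OrthSum a b c → Cyc.IsSum ⟨H, a⟩ ⟨K, b⟩ ⟨L, c⟩

variable (G Y) in
/-- Kasparov's equivariant K-homology group `KK^G_0(C₀(Y), ℂ)`. -/
abbrev KK : Type 1 := Pres (Cyc.Sim (G := G) (Y := Y)) Cyc.IsSum

end

/-! ### The classifying space for proper actions and its K-homology -/

section

variable (G X : Type) [Group G] [TopologicalSpace X] [MulAction G X] [ContinuousConstSMul G X]
  [CWComplex (Set.univ : Set X)]

/-- `X` is a classifying space for proper actions of the discrete group `G`: a Hausdorff CW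
complex on which `G` acts by homeomorphisms that permute the open cells, such that an element
which maps an open cell to itself fixes it pointwise (a `G`-CW complex), all stabilisers are
finite (properness), and the fixed-point set of a subgroup is contractible if the subgroup is
finite and empty if it is infinite. -/
structure IsEG : Prop where
  t2 : T2Space X
  cells : ∀ (g : G) n (i : RelCWComplex.cell (Set.univ : Set X) n),
    ∃ j : RelCWComplex.cell (Set.univ : Set X) n,
      (g • ·) '' RelCWComplex.openCell n i = RelCWComplex.openCell n j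
  fix : ∀ (g : G) n (i : RelCWComplex.cell (Set.univ : Set X) n),
    (g • ·) '' RelCWComplex.openCell n i = RelCWComplex.openCell n i →
      ∀ x ∈ RelCWComplex.openCell n i, g • x = x
  proper : ∀ x : X, Finite (MulAction.stabilizer G x)
  contractible : ∀ S : Subgroup G, Finite S → ContractibleSpace (MulAction.fixedPoints S X)
  empty : ∀ S : Subgroup G, Infinite S → MulAction.fixedPoints S X = ∅

/-- A `G`-compact invariant subcomplex of `X`. -/
structure Sub : Type where
  Y : SubMulAction G X
  subcomplex : ∃ C : CWComplex.Subcomplex (Set.univ : Set X), (C : Set X) = Y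
  compact : CompactSpace (MulAction.orbitRel.Quotient G Y)

variable {G X}

/-- The order by inclusion. -/
instance subOrder : Preorder (Sub G X) := Preorder.lift Sub.Y

noncomputable instance subDecEq : DecidableEq (Sub G X) := Classical.decEq _

omit [CWComplex (Set.univ : Set X)] in
instance subSMul (Y : SubMulAction G X) : ContinuousConstSMul G Y :=
  ⟨fun g => ((continuous_const_smul g).comp continuous_subtype_val).subtype_mk _⟩

omit [ContinuousConstSMul G X] in
theorem Sub.mem {Y Y' : Sub G X} (h : Y ≤ Y') (y : Y.Y) : y.1 ∈ Y'.Y := h y.2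

/-- The inclusion map. -/
def Sub.inclFun {Y Y' : Sub G X} (h : Y ≤ Y') (y : Y.Y) : Y'.Y := ⟨y.1, Sub.mem h y⟩

end

end Vale.Agent.P089G
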